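import Vale.Agent.P095.MathlibUsed

namespace Vale.Agent.P095

/-- A tracial state on a unital complex star-algebra. -/
structure IsTracialState {A : Type*} [Ring A] [StarRing A] [Algebra ℂ A]
    (τ : A →ₗ[ℂ] ℂ) : Prop where
  map_one : τ 1 = 1
  im_eq : ∀ a : A, (τ (star a * a)).im = 0
  re_nonneg : ∀ a : A, 0 ≤ (τ (star a * a)).re
  map_mul_comm : ∀ a b : A, τ (a * b) = τ (b * a)

/-- The uniform tracial `2`-norm of `x` is at most `ε`. -/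
def TwoNormLE {A : Type*} [Ring A] [StarRing A] [Algebra ℂ A] (x : A) (ε : ℝ) : Prop :=
  ∀ τ : A →ₗ[ℂ] ℂ, IsTracialState τ → (τ (star x * x)).re ≤ ε ^ 2

open Classical in
/-- Amenability of a discrete group (Folner condition). -/
def IsAmenable (G : Type*) [Group G] : Prop :=
  ∀ (S : Finset G) (ε : ℝ), 0 < ε → ∃ K : Finset G, K.Nonempty ∧
    ∀ s ∈ S, ((K.filter (fun g => s * g ∉ K)).card : ℝ) ≤ ε * (K.card : ℝ)

/-- Uniform property Gamma of a unital C*-algebra. -/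
def UniformGamma (A : Type*) [CStarAlgebra A] : Prop :=
  ∀ (k : ℕ), 1 ≤ k → ∀ (F : Finset A) (ε : ℝ), 0 < ε →
    ∃ e : Fin k → A,
      (∀ i, (∃ b, e i = star b * b) ∧ ‖e i‖ ≤ 1 ∧ TwoNormLE (e i * e i - e i) ε) ∧
      (∀ i j, i ≠ j → TwoNormLE (e i * e j) ε) ∧
      (∀ i, ∀ a ∈ F, TwoNormLE (e i * a - a * e i) ε) ∧
      (∀ i, ∀ a ∈ F, ∀ τ : A →ₗ[ℂ] ℂ, IsTracialState τ → ‖τ (a * e i) - τ a / k‖ ≤ ε)

/-- Equivariant uniform property Gamma of an action on a unital C*-algebra. -/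
def EquivariantUniformGamma {A G : Type*} [CStarAlgebra A] [Group G]
    (α : G →* (A ≃⋆ₐ[ℂ] A)) : Prop :=
  ∀ (k : ℕ), 1 ≤ k → ∀ (F : Finset A) (S : Finset G) (ε : ℝ), 0 < ε →
    ∃ e : Fin k → A,
      (∀ i, (∃ b, e i = star b * b) ∧ ‖e i‖ ≤ 1 ∧ TwoNormLE (e i * e i - e i) ε) ∧
      (∀ i j, i ≠ j → TwoNormLE (e i * e j) ε) ∧
      (∀ i, ∀ a ∈ F, TwoNormLE (e i * a - a * e i) ε) ∧
      (∀ i, ∀ s ∈ S, TwoNormLE (α s (e i) - e i) ε) ∧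
      (∀ i, ∀ a ∈ F, ∀ τ : A →ₗ[ℂ] ℂ, IsTracialState τ → ‖τ (a * e i) - τ a / k‖ ≤ ε)

end Vale.Agent.P095
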