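import Vale.Agent.P101.StmtZ
import Vale.Agent.P095.Defs

/-! Cocycle conjugacy and equivariant `𝒵`-stability, for the final statements. -/

namespace Vale.Agent.P095

universe u w

open Vale.Agent.P101

/-- The actions `α` and `β` on unital C*-algebras are cocycle conjugate. -/
structure CocycleConjugate {A B : Type u} [CStarAlgebra A] [CStarAlgebra B] {G : Type w} [Group G]
    (α : G →* (A ≃⋆ₐ[ℂ] A)) (β : G →* (B ≃⋆ₐ[ℂ] B)) : Prop where
  conj : ∃ (Φ : A ≃⋆ₐ[ℂ] B) (u : G → B), (∀ g, u g ∈ unitary B) ∧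
    (∀ g h, u (g * h) = u g * β g (u h)) ∧
    ∀ g a, Φ (α g a) = u g * β g (Φ a) * star (u g)

/-- `β` is the action `α ⊗ id` on the C*-completion `B` of `A ⊗ Z` given by `i` and `j`. -/
structure IsTensorTrivial {A Z B : Type u} [CStarAlgebra A] [CStarAlgebra Z] [CStarAlgebra B]
    {G : Type w} [Group G] (i : A →⋆ₐ[ℂ] B) (j : Z →⋆ₐ[ℂ] B) (α : G →* (A ≃⋆ₐ[ℂ] A))
    (β : G →* (B ≃⋆ₐ[ℂ] B)) : Prop where
  left : ∀ g a, β g (i a) = i (α g a)
  right : ∀ g z, β g (j z) = j z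

/-- `α` is cocycle conjugate to `α ⊗ id` on `A ⊗ 𝒵`. -/
structure EquivariantlyZStable {A : Type u} [CStarAlgebra A] {G : Type w} [Group G]
    (α : G →* (A ≃⋆ₐ[ℂ] A)) : Prop where
  conj : ∀ (Z B : Type u) [CStarAlgebra Z] [CStarAlgebra B] (i : A →⋆ₐ[ℂ] B) (j : Z →⋆ₐ[ℂ] B)
    (β : G →* (B ≃⋆ₐ[ℂ] B)), IsJiangSuAlgebra Z → IsTensorCompletion i j →
      IsTensorTrivial i j α β → CocycleConjugate α β

end Vale.Agent.P095
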