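import Mathlib.Algebra.GroupWithZero.Action.Pointwise.Finset
import Mathlib.Algebra.Order.Chebyshev
import Mathlib.Algebra.Ring.Action.Pointwise.Finset
import Mathlib.Analysis.CStarAlgebra.CompletelyPositiveMap
import Mathlib.Analysis.CStarAlgebra.ContinuousFunctionalCalculus.Range
import Mathlib.Analysis.CStarAlgebra.ContinuousLinearMap
import Mathlib.Analysis.CStarAlgebra.GelfandNaimarkSegal
import Mathlib.Analysis.CStarAlgebra.Hom
import Mathlib.Analysis.CStarAlgebra.Multiplier
import Mathlib.Analysis.CStarAlgebra.Unitary.Span
import Mathlib.Analysis.CStarAlgebra.lpSpace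
import Mathlib.Analysis.Complex.ExponentialBounds
import Mathlib.Analysis.InnerProductSpace.GramMatrix
import Mathlib.Analysis.Normed.Unbundled.RingSeminorm
import Mathlib.Analysis.Real.Pi.Bounds
import Mathlib.Analysis.SpecialFunctions.ContinuousFunctionalCalculus.Rpow.Order
import Mathlib.Data.Finset.DenselyOrdered
import Mathlib.Data.Finset.Functor
import Mathlib.Data.Int.Star
import Mathlib.Data.Matrix.PEquiv
import Mathlib.Data.Set.Finite.List
import Mathlib.GroupTheory.FreeGroup.Reduce
import Mathlib.LinearAlgebra.Matrix.FiniteDimensional
import Mathlib.MeasureTheory.Measure.SeparableMeasure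
import Mathlib.Order.CompletePartialOrder
import Mathlib.RingTheory.Congruence.Hom
import Mathlib.RingTheory.Flat.FaithfullyFlat.Algebra
import Mathlib.RingTheory.Flat.TorsionFree
import Mathlib.RingTheory.SimpleRing.Principal
import Mathlib.RingTheory.TwoSidedIdeal.Instances
import Mathlib.Tactic
import Mathlib.Topology.ContinuousMap.SecondCountableSpace
import Mathlib.Topology.Order.Hom.Esakia
import Mathlib.Topology.Separation.CompletelyRegular

/-! The part of Mathlib that the development of this folder uses. -/
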